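import Vale.Agent.P217.Theta.Basic
import Mathlib.Algebra.CharP.Quotient
import Mathlib.Algebra.CharP.Lemmas

/-!
# P217: congruences modulo `c` between a law near the Honda law and the Honda law
-/

noncomputable section

set_option linter.unusedSectionVars false

namespace Vale.Agent.P217.Theta

open MvPowerSeries Finset Filter Topology

variable {C : Type} [NormedField C] [IsUltrametricDist C]

/-- Elements of the unit ball of norm at most `r`. -/
def ballIdeal (C : Type) [NormedField C] [IsUltrametricDist C] (r : ℝ) (hr : 0 ≤ r) :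
    Ideal (unitBall C) where
  carrier := {a | ‖(a : C)‖ ≤ r}
  add_mem' := fun {a b} ha hb => (IsUltrametricDist.norm_add_le_max _ _).trans (max_le ha hb)
  zero_mem' := by simpa using hr
  smul_mem' := fun a b (hb : ‖(b : C)‖ ≤ r) => by
    change ‖((a : C) * (b : C))‖ ≤ r
    rw [norm_mul]
    exact (mul_le_of_le_one_left (norm_nonneg _) a.2).trans hb

lemma mem_ballIdeal {r : ℝ} {hr : 0 ≤ r} {a : unitBall C} :
    a ∈ ballIdeal C r hr ↔ ‖(a : C)‖ ≤ r := Iff.rfl

lemma norm_sub_le_of_mk_eq {r : ℝ} {hr : 0 ≤ r} {a b : unitBall C}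
    (h : Ideal.Quotient.mk (ballIdeal C r hr) a = Ideal.Quotient.mk (ballIdeal C r hr) b) :
    ‖(a : C) - b‖ ≤ r := by
  have := mem_ballIdeal.1 ((Ideal.Quotient.mk_eq_mk_iff_sub_mem a b).1 h)
  simpa using this

lemma norm_sub_trans {x y z : C} {c : ℝ} (h1 : ‖x - y‖ ≤ c) (h2 : ‖y - z‖ ≤ c) :
    ‖x - z‖ ≤ c := by
  rw [show x - z = (x - y) + (y - z) by abel]
  exact (IsUltrametricDist.norm_add_le_max _ _).trans (max_le h1 h2)

/-- Parameters close to those of the height `n` Honda law. -/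
structure NearHonda (n : ℕ) (c : ℝ) (v : ℕ → C) : Prop where
  le_one : ∀ i, ‖v i‖ ≤ 1
  near : ∀ i, ‖v i - vHonda n i‖ ≤ c

lemma nearHonda_vTuple {n : ℕ} {c : ℝ} (h0 : 0 ≤ c) (h1 : c ≤ 1) {u : Fin (n - 1) → C}
    (hu : ∀ i, ‖u i‖ ≤ c) : NearHonda n c (vTuple n u) := by
  refine ⟨fun i => ?_, fun i => ?_⟩ <;> unfold vTuple
  · split_ifs
    exacts [(hu _).trans h1, norm_one.le, by simp]
  · unfold vHonda
    split_ifs with h h'
    · omega
    · simpa using hu _
    · simpa using h0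
    · simpa using h0

/-- The law with coefficients in the unit ball. -/
def lawBall (p : ℕ) {v : ℕ → C} (hv : ∀ i, ‖v i‖ ≤ 1) : FormalGroup (unitBall C) :=
  law p fun i => (⟨v i, hv i⟩ : unitBall C)

lemma map_lawBall (p : ℕ) {v : ℕ → C} (hv : ∀ i, ‖v i‖ ≤ 1) :
    (lawBall p hv).map (unitBall C).subtype = law p v := by rw [lawBall, law_map']; rfl

lemma intSer_law (p : ℕ) {v : ℕ → C} (hv : ∀ i, ‖v i‖ ≤ 1) : IntSer (law p v).toPowerSeries := by
  intro d
  rw [← map_lawBall p hv, FormalGroup.map_toPowerSeries, coeff_map]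
  exact (coeff d (lawBall p hv).toPowerSeries).2

lemma coeff_honda {A : Type} [CommRing A] (p n : ℕ) (d : Fin 2 →₀ ℕ) :
    coeff d (honda p n A).toPowerSeries = ((coeff d (honda p n ℤ).toPowerSeries : ℤ) : A) := by
  have h : (honda p n ℤ).map (Int.castRingHom A) = honda p n A := by
    rw [honda, law_map', honda]
    congr 1
    funext i
    simp only [vHonda]
    split_ifs <;> simp
  rw [← h, FormalGroup.map_toPowerSeries, coeff_map]
  rfl

lemma norm_coeff_law_sub {p n : ℕ} {c : ℝ} (h0 : 0 ≤ c) {v : ℕ → C} (hv : NearHonda n c v)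
    (d : Fin 2 →₀ ℕ) :
    ‖coeff d (law p v).toPowerSeries - ((coeff d (honda p n ℤ).toPowerSeries : ℤ) : C)‖ ≤ c := by
  let q := Ideal.Quotient.mk (ballIdeal C c h0)
  have hq : (lawBall p hv.le_one).map q = honda p n (unitBall C ⧸ ballIdeal C c h0) := by
    rw [lawBall, law_map', honda]
    congr 1
    funext i
    rw [show (vHonda n i : unitBall C ⧸ ballIdeal C c h0) =
      q (vHonda n i : unitBall C) by unfold vHonda; split_ifs <;> simp]
    refine (Ideal.Quotient.mk_eq_mk_iff_sub_mem _ _).2 (mem_ballIdeal.2 ?_)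
    have := hv.near i
    unfold vHonda at this ⊢
    split_ifs at this ⊢ with h <;> simpa using this
  have h := congrArg (fun F : FormalGroup (unitBall C ⧸ ballIdeal C c h0) =>
    coeff d F.toPowerSeries) hq
  simp only [FormalGroup.map_toPowerSeries, coeff_map] at h
  rw [coeff_honda, ← map_intCast q] at h
  have h2 := norm_sub_le_of_mk_eq h
  rw [← map_lawBall p hv.le_one, FormalGroup.map_toPowerSeries, coeff_map]
  simpa using h2

lemma norm_coeff_mulSer_sub {p : ℕ} {v v' : ℕ → C} (hv : ∀ i, ‖v i‖ ≤ 1)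
    (hv' : ∀ i, ‖v' i‖ ≤ 1) {r : ℝ} (hr : 0 ≤ r) (h : ∀ i, ‖v i - v' i‖ ≤ r) (k m : ℕ) :
    ‖PowerSeries.coeff m (mulSer (law p v) k) - PowerSeries.coeff m (mulSer (law p v') k)‖ ≤ r := by
  let q := Ideal.Quotient.mk (ballIdeal C r hr)
  have hq : (lawBall p hv).map q = (lawBall p hv').map q := by
    rw [lawBall, lawBall, law_map', law_map']
    congr 1
    funext i
    refine (Ideal.Quotient.mk_eq_mk_iff_sub_mem _ _).2 (mem_ballIdeal.2 ?_)
    simpa using h i
  have h1 : PowerSeries.map q (mulSer (lawBall p hv) k) =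
      PowerSeries.map q (mulSer (lawBall p hv') k) := by rw [map_mulSer, map_mulSer, hq]
  have h2 := congrArg (PowerSeries.coeff m) h1
  rw [PowerSeries.coeff_map, PowerSeries.coeff_map] at h2
  rw [← map_lawBall p hv, ← map_lawBall p hv', ← map_mulSer, ← map_mulSer,
    PowerSeries.coeff_map, PowerSeries.coeff_map]
  exact norm_sub_le_of_mk_eq h2

lemma norm_coeff_pSer_sub (hL : LowDegreeTarget) {p n : ℕ} [hp : Fact p.Prime] (hn : 1 ≤ n)
    {c : ℝ} (h0 : 0 ≤ c) (h1 : c < 1) (hpc : ‖(p : C)‖ ≤ c) {v : ℕ → C} (hv : NearHonda n c v)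
    (m : ℕ) :
    ‖PowerSeries.coeff m (pSer p (law p v)) -
      PowerSeries.coeff m ((PowerSeries.X : PowerSeries C) ^ p ^ n)‖ ≤ c := by
  let I := ballIdeal C c h0
  let q := Ideal.Quotient.mk I
  have : Nontrivial (unitBall C ⧸ I) := Ideal.Quotient.nontrivial_iff.2 fun h => by
    have := mem_ballIdeal.1 ((Ideal.eq_top_iff_one I).1 h)
    simp at this
    linarith
  have : CharP (unitBall C ⧸ I) p := by
    refine (CharP.charP_iff_prime_eq_zero hp.out).2 ?_
    rw [← map_natCast q, Ideal.Quotient.eq_zero_iff_mem, mem_ballIdeal]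
    simpa using hpc
  have hq : (lawBall p hv.le_one).map q = honda p n (unitBall C ⧸ I) := by
    rw [lawBall, law_map', honda]
    congr 1
    funext i
    rw [show (vHonda n i : unitBall C ⧸ I) =
      q (vHonda n i : unitBall C) by unfold vHonda; split_ifs <;> simp]
    refine (Ideal.Quotient.mk_eq_mk_iff_sub_mem _ _).2 (mem_ballIdeal.2 ?_)
    have := hv.near i
    unfold vHonda at this ⊢
    split_ifs at this ⊢ with h <;> simpa using this
  have h : PowerSeries.map q (pSer p (lawBall p hv.le_one)) =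
      PowerSeries.map q ((PowerSeries.X : PowerSeries (unitBall C)) ^ p ^ n) := by
    rw [pSer, map_mulSer, hq, map_pow, PowerSeries.map_X]
    exact (hL p (unitBall C ⧸ I)).2.2.2 n hn inferInstance
  have h2 := congrArg (PowerSeries.coeff m) h
  rw [PowerSeries.coeff_map, PowerSeries.coeff_map] at h2
  have h3 := norm_sub_le_of_mk_eq h2
  rw [pSer, ← map_lawBall p hv.le_one, ← map_mulSer, PowerSeries.coeff_map,
    PowerSeries.coeff_X_pow]
  rw [PowerSeries.coeff_X_pow] at h3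
  split_ifs at h3 ⊢ <;> simpa [pSer] using h3

/-! ## Multiplicative maps that are additive modulo `c` -/

section Rho

variable {D : Type} [NormedField D] [IsUltrametricDist D]

/-- `ρ` preserves norms and is additive modulo `c` on the unit ball. -/
structure NearAdd (ρ : C →*₀ D) (c : ℝ) : Prop where
  nonneg : 0 ≤ c
  lt_one : c < 1
  norm_eq : ∀ a, ‖ρ a‖ = ‖a‖
  add_le : ∀ a b : C, ‖a‖ ≤ 1 → ‖b‖ ≤ 1 → ‖ρ (a + b) - ρ a - ρ b‖ ≤ c

variable {ρ : C →*₀ D} {c : ℝ} (hρ : NearAdd ρ c)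
include hρ

lemma NearAdd.map_sub {a b : C} (ha : ‖a‖ ≤ 1) (hb : ‖b‖ ≤ 1) :
    ‖ρ a - ρ b - ρ (a - b)‖ ≤ c := by
  have hab : ‖a - b‖ ≤ 1 := by
    rw [sub_eq_add_neg]
    exact (IsUltrametricDist.norm_add_le_max _ _).trans (max_le ha (by rwa [norm_neg]))
  have := hρ.add_le b (a - b) hb hab
  rwa [add_sub_cancel] at this

lemma NearAdd.close {a b : C} {r : ℝ} (ha : ‖a‖ ≤ 1) (hb : ‖b‖ ≤ 1) (hr : ‖a - b‖ ≤ r) :
    ‖ρ a - ρ b‖ ≤ max c r := by
  rw [show ρ a - ρ b = (ρ a - ρ b - ρ (a - b)) + ρ (a - b) by abel]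
  exact (IsUltrametricDist.norm_add_le_max _ _).trans
    (max_le_max (hρ.map_sub ha hb) ((hρ.norm_eq _).trans_le hr))

lemma NearAdd.map_intCast (m : ℤ) : ‖ρ (m : C) - (m : D)‖ ≤ c := by
  have hnat : ∀ k : ℕ, ‖ρ (k : C) - (k : D)‖ ≤ c := by
    intro k
    induction k with
    | zero => simpa using hρ.nonneg
    | succ k ih =>
      have h := hρ.add_le (k : C) 1 (IsUltrametricDist.norm_natCast_le_one C k) norm_one.le
      rw [show ρ ((k + 1 : ℕ) : C) - ((k + 1 : ℕ) : D) =
        (ρ ((k : C) + 1) - ρ (k : C) - ρ 1) + (ρ (k : C) - (k : D)) by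
          rw [map_one]; push_cast; ring]
      exact (IsUltrametricDist.norm_add_le_max _ _).trans (max_le h ih)
  rcases m.eq_nat_or_neg with ⟨k, rfl | rfl⟩
  · simpa using hnat k
  · have hk : ‖(k : C)‖ ≤ 1 := IsUltrametricDist.norm_natCast_le_one C k
    have h := hρ.add_le (k : C) (-(k : C)) hk (by rwa [norm_neg])
    rw [add_neg_cancel, map_zero] at h
    push_cast
    rw [show ρ (-(k : C)) - -(k : D) =
      -((ρ (k : C) - (k : D)) + (0 - ρ (k : C) - ρ (-(k : C)))) by ring, norm_neg]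
    exact (IsUltrametricDist.norm_add_le_max _ _).trans (max_le (hnat k) h)

lemma NearAdd.map_sum {ι : Type*} (s : Finset ι) {a : ι → C} (ha : ∀ i, ‖a i‖ ≤ 1) :
    ‖ρ (∑ i ∈ s, a i) - ∑ i ∈ s, ρ (a i)‖ ≤ c := by
  classical
  induction s using Finset.induction_on with
  | empty => simpa using hρ.nonneg
  | insert i s hi ih =>
    rw [Finset.sum_insert hi, Finset.sum_insert hi]
    have h := hρ.add_le (a i) (∑ j ∈ s, a j) (ha i)
      (IsUltrametricDist.norm_sum_le_of_forall_le_of_nonneg zero_le_one fun j _ => ha j)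
    rw [show ρ (a i + ∑ j ∈ s, a j) - (ρ (a i) + ∑ j ∈ s, ρ (a j)) =
      (ρ (a i + ∑ j ∈ s, a j) - ρ (a i) - ρ (∑ j ∈ s, a j)) +
        (ρ (∑ j ∈ s, a j) - ∑ j ∈ s, ρ (a j)) by abel]
    exact (IsUltrametricDist.norm_add_le_max _ _).trans (max_le h ih)

variable [CompleteSpace C] [CompleteSpace D]

lemma NearAdd.map_ev (hE : EvalTarget) {σ : Type} [Fintype σ] {x : σ → C} {y : σ → D}
    (hx : Small x) (hy : Small y) (hxy : ∀ i, ‖y i - ρ (x i)‖ ≤ c)
    {f : MvPowerSeries σ C} {g : MvPowerSeries σ D} (hf : IntSer f) (hg : IntSer g)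
    (hfg : ∀ d, ‖coeff d g - ρ (coeff d f)‖ ≤ c) : ‖ev y g - ρ (ev x f)‖ ≤ c := by
  have hx' : Small fun i => ρ (x i) := fun i => (hρ.norm_eq _).trans_lt (hx i)
  refine norm_sub_trans (norm_ev_sub_le hE hy hx' hg hρ.nonneg hxy) ?_
  have hS := hasSum_ev hE hx hf
  have hT := hasSum_ev hE hx' hg
  have hmon : ∀ d, mon (fun i => ρ (x i)) d = ρ (mon x d) := fun d => by
    simp [mon, Finsupp.prod, map_prod, map_pow]
  have hm1 : ∀ d, ‖mon x d‖ ≤ 1 := fun d => by
    rw [mon, Finsupp.prod, norm_prod]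
    exact Finset.prod_le_one (fun i _ => norm_nonneg _)
      (fun i _ => by rw [norm_pow]; exact pow_le_one₀ (norm_nonneg _) (hx i).le)
  have ha : ∀ d, ‖coeff d f * mon x d‖ ≤ 1 := fun d => by
    rw [norm_mul]
    exact mul_le_one₀ (hf d) (norm_nonneg _) (hm1 d)
  refine le_of_forall_gt_imp_ge_of_dense fun e he => ?_
  have he0 : 0 < e := hρ.nonneg.trans_lt he
  obtain ⟨s, hsS, hsT⟩ : ∃ s : Finset (σ →₀ ℕ),
      ‖(∑ d ∈ s, coeff d f * mon x d) - ev x f‖ ≤ e ∧
        ‖(∑ d ∈ s, coeff d g * mon (fun i => ρ (x i)) d) - ev (fun i => ρ (x i)) g‖ ≤ e := by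
    have h1 := (tendsto_iff_norm_sub_tendsto_zero.1 hS).eventually_le_const he0
    have h2 := (tendsto_iff_norm_sub_tendsto_zero.1 hT).eventually_le_const he0
    exact (h1.and h2).exists
  have hsum : ‖∑ d ∈ s, coeff d f * mon x d‖ ≤ 1 :=
    IsUltrametricDist.norm_sum_le_of_forall_le_of_nonneg zero_le_one fun d _ => ha d
  have h3 := (hρ.close hsum (norm_ev_le_one hE hx hf) hsS).trans (max_le he.le le_rfl)
  have h4 := (hρ.map_sum s ha).trans he.le
  have h5 : ‖(∑ d ∈ s, coeff d g * mon (fun i => ρ (x i)) d) -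
      ∑ d ∈ s, ρ (coeff d f * mon x d)‖ ≤ e := by
    rw [← Finset.sum_sub_distrib]
    refine IsUltrametricDist.norm_sum_le_of_forall_le_of_nonneg he0.le fun d _ => ?_
    rw [hmon, map_mul, ← sub_mul, norm_mul, hρ.norm_eq]
    exact (mul_le_of_le_one_right (norm_nonneg _) (hm1 d)).trans ((hfg d).trans he.le)
  refine norm_sub_trans ?_ (norm_sub_trans h5 (norm_sub_trans ?_ h3))
  · rwa [norm_sub_rev]
  · rwa [norm_sub_rev]

lemma NearAdd.map_padd (hE : EvalTarget) {p n : ℕ} {v : ℕ → D} (hv : NearHonda n c v)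
    {a b : C} {a' b' : D} (ha : ‖a‖ < 1) (hb : ‖b‖ < 1) (ha' : ‖a'‖ < 1) (hb' : ‖b'‖ < 1)
    (haa : ‖a' - ρ a‖ ≤ c) (hbb : ‖b' - ρ b‖ ≤ c) :
    ‖padd (law p v) a' b' - ρ (padd (honda p n C) a b)‖ ≤ c := by
  refine hρ.map_ev hE (small_pair ha hb) (small_pair ha' hb')
    (fun i => by fin_cases i <;> assumption) ?_ (intSer_law p hv.le_one) fun d => ?_
  · intro d
    rw [coeff_honda]
    exact IsUltrametricDist.norm_intCast_le_one C _
  · rw [coeff_honda (A := C)]
    exact norm_sub_trans (norm_coeff_law_sub hρ.nonneg hv d)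
      (by rw [norm_sub_rev]; exact hρ.map_intCast _)

end Rho

/-! ## Roots in characteristic `p` -/

section Root

variable {p : ℕ} [hp : Fact p.Prime] [CharP C p] [PerfectRing C p]

lemma root_pow (η : C) : ∀ m, root p η m ^ p ^ m = η
  | 0 => by simp [root]
  | m + 1 => by
    rw [root, Function.iterate_succ_apply', pow_succ', pow_mul,
      frobeniusEquiv_symm_pow_p]
    exact root_pow η m

lemma pow_p_pow_injective (m : ℕ) : Function.Injective fun x : C => x ^ p ^ m := by
  intro a b h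
  have : (a - b) ^ p ^ m = 0 := by rw [sub_pow_char_pow]; exact sub_eq_zero.2 h
  exact sub_eq_zero.1 (pow_eq_zero_iff'.1 this).1

lemma root_eq_iff {η z : C} {m : ℕ} : root p η m = z ↔ z ^ p ^ m = η :=
  ⟨fun h => h ▸ root_pow η m, fun h => pow_p_pow_injective m ((root_pow η m).trans h.symm)⟩

lemma root_zero (η : C) : root p η 0 = η := rfl

lemma root_root (η : C) (a b : ℕ) : root p (root p η a) b = root p η (a + b) := by
  rw [root, root, root, ← Function.iterate_add_apply, add_comm]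

lemma root_pow_comm (η : C) (a b : ℕ) : root p (η ^ p ^ a) (a + b) = root p η b := by
  rw [root_eq_iff, pow_add, mul_comm, pow_mul, root_pow]

lemma root_zero_left (m : ℕ) : root p (0 : C) m = 0 :=
  root_eq_iff.2 (zero_pow (pow_ne_zero m hp.out.ne_zero))

lemma norm_root_lt {η : C} (h : ‖η‖ < 1) (m : ℕ) : ‖root p η m‖ < 1 := by
  have := root_pow (p := p) η m
  by_contra hc
  rw [not_lt] at hc
  have h1 : 1 ≤ ‖root p η m ^ p ^ m‖ := by rw [norm_pow]; exact one_le_pow₀ hc
  rw [this] at h1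
  exact h.not_ge h1

lemma norm_root_sub_le {η η' : C} {c : ℝ} (h0 : 0 ≤ c) {m : ℕ} (h : ‖η - η'‖ ≤ c ^ p ^ m) :
    ‖root p η m - root p η' m‖ ≤ c := by
  refine le_of_pow_le_pow_left₀ (pow_ne_zero m hp.out.ne_zero) h0 ?_
  rwa [← norm_pow, sub_pow_char_pow, root_pow, root_pow]

variable [CompleteSpace C]

lemma root_ev (hE : EvalTarget) {σ : Type} [Fintype σ] {x : σ → C} (hx : Small x)
    {f : MvPowerSeries σ C} (hf : IntSer f) {m : ℕ}
    (hfix : ∀ d, coeff d f ^ p ^ m = coeff d f) :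
    root p (ev x f) m = ev (fun i => root p (x i) m) f := by
  rw [root_eq_iff]
  have hr : Small fun i => root p (x i) m := fun i => norm_root_lt (hx i) m
  have h1 : HasSum (fun d => (coeff d f * mon (fun i => root p (x i) m) d) ^ p ^ m)
      (ev (fun i => root p (x i) m) f ^ p ^ m) :=
    (hasSum_ev hE hr hf).map (iterateFrobenius C p m) (continuous_pow _)
  have h2 : (fun d => (coeff d f * mon (fun i => root p (x i) m) d) ^ p ^ m) =
      fun d => coeff d f * mon x d := by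
    funext d
    rw [mul_pow, hfix]
    congr 1
    simp only [mon, Finsupp.prod]
    rw [← Finset.prod_pow]
    refine Finset.prod_congr rfl fun i _ => ?_
    rw [← pow_mul, mul_comm, pow_mul, root_pow]
  rw [h2] at h1
  exact h1.unique (hasSum_ev hE hx hf)

end Root

end Vale.Agent.P217.Theta

end
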