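import Vale.Agent.P217.Targets
import Vale.Agent.P217.Formal.Law
import Mathlib.Analysis.Normed.Group.Ultra
import Mathlib.Analysis.Normed.Field.Basic

/-!
# P217: the group of points of an integral law in the open unit disc

Everything here is at the level of values; the evaluation properties come from `EvalTarget`.
-/

noncomputable section

set_option linter.unusedSectionVars false

namespace Vale.Agent.P217.Theta

open MvPowerSeries Finset Filter Topology

/-! ## Plain lemmas on series -/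

section Series

variable {A B : Type*} [CommRing A] [CommRing B]

lemma law_map' (p : ℕ) (f : A →+* B) (v : ℕ → A) :
    (law p v).map f = law p (fun i => f (v i)) := by
  have h : f.comp (MvPolynomial.aeval v : MvPolynomial ℕ ℤ →ₐ[ℤ] A).toRingHom =
      (MvPolynomial.aeval (fun i => f (v i)) : MvPolynomial ℕ ℤ →ₐ[ℤ] B).toRingHom :=
    MvPolynomial.ringHom_ext (fun r => by simp) (fun i => by simp)
  apply FormalGroup.ext
  simp only [law, FormalGroup.map_toPowerSeries]
  rw [← h]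
  ext d
  simp

lemma hasSubst_pair {σ : Type*} {a b : MvPowerSeries σ A} (ha : constantCoeff a = 0)
    (hb : constantCoeff b = 0) : HasSubst ![a, b] :=
  hasSubst_of_constantCoeff_zero fun i => by fin_cases i <;> simpa

lemma mulSer_zero (F : FormalGroup A) : mulSer F 0 = 0 := rfl

lemma mulSer_succ (F : FormalGroup A) (m : ℕ) :
    mulSer F (m + 1) = fadd F (PowerSeries.X : PowerSeries A) (mulSer F m) := rfl

lemma constantCoeff_mulSer (F : FormalGroup A) :
    ∀ m, MvPowerSeries.constantCoeff (mulSer F m : MvPowerSeries Unit A) = 0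
  | 0 => map_zero _
  | m + 1 => by
    have hc : ∀ i : Fin 2, MvPowerSeries.constantCoeff
        ((![(PowerSeries.X : PowerSeries A), mulSer F m] i : MvPowerSeries Unit A)) = 0 := by
      intro i
      fin_cases i
      · exact PowerSeries.constantCoeff_X
      · exact constantCoeff_mulSer F m
    exact constantCoeff_subst_eq_zero (hasSubst_of_constantCoeff_zero hc) hc F.zero_constantCoeff

lemma map_mulSer (F : FormalGroup A) (g : A →+* B) :
    ∀ m, PowerSeries.map g (mulSer F m) = mulSer (F.map g) m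
  | 0 => map_zero _
  | m + 1 => by
    have ih := map_mulSer F g m
    rw [mulSer_succ, mulSer_succ, fadd, fadd]
    have hs : HasSubst ![(PowerSeries.X : PowerSeries A), mulSer F m] :=
      hasSubst_pair PowerSeries.constantCoeff_X (constantCoeff_mulSer F m)
    refine (map_subst hs _).trans ?_
    refine congrArg₂ (fun g F => MvPowerSeries.subst g F) (funext fun j => ?_) rfl
    fin_cases j
    · exact PowerSeries.map_X g
    · exact ih

end Series

/-! ## Evaluation -/

section Eval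

variable {C : Type} [NormedField C] [IsUltrametricDist C] [CompleteSpace C]

/-- An integral law. -/
abbrev IntLaw (F : FormalGroup C) : Prop := IntSer F.toPowerSeries

lemma intSer_zero {σ : Type*} : IntSer (0 : MvPowerSeries σ C) := fun d => by simp

lemma intSer_X {σ : Type*} (i : σ) : IntSer (MvPowerSeries.X i : MvPowerSeries σ C) := fun d => by
  classical
  rw [coeff_X]
  split_ifs <;> simp

lemma intSer_psX : IntSer (PowerSeries.X : PowerSeries C) := intSer_X ()

lemma small_pair {a b : C} (ha : ‖a‖ < 1) (hb : ‖b‖ < 1) : Small ![a, b] := fun i => by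
  fin_cases i <;> assumption

lemma small_unit {z : C} (hz : ‖z‖ < 1) : Small (fun _ : Unit => z) := fun _ => hz

variable (hE : EvalTarget)
include hE

variable {σ : Type} [Fintype σ] {x y : σ → C} {f g : MvPowerSeries σ C}

omit [Fintype σ] in
lemma ev_zero : ev x (0 : MvPowerSeries σ C) = 0 := by simp [ev]

lemma hasSum_ev (hx : Small x) (hf : IntSer f) :
    HasSum (fun d => coeff d f * mon x d) (ev x f) :=
  ((hE C).1 σ x f f hx hf hf).2.2.1.hasSum

lemma ev_add (hx : Small x) (hf : IntSer f) (hg : IntSer g) :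
    ev x (f + g) = ev x f + ev x g := ((hE C).1 σ x f g hx hf hg).2.2.2.1

lemma norm_ev_le_one (hx : Small x) (hf : IntSer f) : ‖ev x f‖ ≤ 1 :=
  ((hE C).1 σ x f f hx hf hf).2.2.2.2.2.1

lemma norm_ev_le (hx : Small x) (hf : IntSer f) (h0 : constantCoeff f = 0) {r : ℝ} (hr : 0 ≤ r)
    (hxr : ∀ i, ‖x i‖ ≤ r) : ‖ev x f‖ ≤ r :=
  ((hE C).1 σ x f f hx hf hf).2.2.2.2.2.2.1 h0 r hr hxr

lemma norm_ev_sub_le (hx : Small x) (hy : Small y) (hf : IntSer f) {r : ℝ} (hr : 0 ≤ r)
    (h : ∀ i, ‖x i - y i‖ ≤ r) : ‖ev x f - ev y f‖ ≤ r :=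
  ((hE C).1 σ x f f hx hf hf).2.2.2.2.2.2.2 y hy r hr h

lemma norm_ev_lt_one (hx : Small x) (hf : IntSer f) (h0 : constantCoeff f = 0) :
    ‖ev x f‖ < 1 := by
  obtain ⟨r, hr0, hr1, hxr⟩ : ∃ r : ℝ, 0 ≤ r ∧ r < 1 ∧ ∀ i, ‖x i‖ ≤ r := by
    classical
    refine ⟨((univ.image fun i => ‖x i‖) ∪ {0}).max' (by simp), ?_, ?_, fun i => ?_⟩
    · exact Finset.le_max' _ _ (by simp)
    · rw [Finset.max'_lt_iff]
      intro t ht
      simp only [Finset.mem_union, Finset.mem_image, Finset.mem_singleton] at ht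
      rcases ht with ⟨i, -, rfl⟩ | rfl
      · exact hx i
      · exact one_pos
    · exact Finset.le_max' _ _ (by simp)
  exact (norm_ev_le hE hx hf h0 hr0 hxr).trans_lt hr1

lemma ev_C (hx : Small x) (i : σ) (c : C) : ev x (MvPowerSeries.C c) = c :=
  ((hE C).2.1 σ x c i hx).1

lemma ev_X (hx : Small x) (i : σ) : ev x (MvPowerSeries.X i) = x i :=
  ((hE C).2.1 σ x 0 i hx).2

omit x y f g

variable {τ : Type} [Fintype τ]

lemma intSer_subst {g : σ → MvPowerSeries τ C} {f : MvPowerSeries σ C}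
    (hg : ∀ i, IntSer (g i) ∧ constantCoeff (g i) = 0) (hf : IntSer f) :
    IntSer (f.subst g) :=
  ((hE C).2.2.1 σ τ g f (fun _ => 0) hg hf (fun _ => by simp)).1

lemma ev_subst {g : σ → MvPowerSeries τ C} {f : MvPowerSeries σ C} {y : τ → C}
    (hg : ∀ i, IntSer (g i) ∧ constantCoeff (g i) = 0) (hf : IntSer f) (hy : Small y) :
    ev y (f.subst g) = ev (fun i => ev y (g i)) f :=
  ((hE C).2.2.1 σ τ g f y hg hf hy).2

lemma ev_subst_pair {a b : MvPowerSeries τ C} (ha : IntSer a) (ha0 : constantCoeff a = 0)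
    (hb : IntSer b) (hb0 : constantCoeff b = 0) {F : FormalGroup C} (hF : IntLaw F)
    {y : τ → C} (hy : Small y) :
    ev y (F.toPowerSeries.subst ![a, b]) = padd F (ev y a) (ev y b) := by
  rw [ev_subst hE (fun i => by fin_cases i; exacts [⟨ha, ha0⟩, ⟨hb, hb0⟩]) hF hy, padd]
  congr 1
  funext i
  fin_cases i <;> rfl

lemma ev1_X {z : C} (hz : ‖z‖ < 1) : ev1 z (PowerSeries.X : PowerSeries C) = z :=
  ev_X hE (small_unit hz) ()

omit [IsUltrametricDist C] [CompleteSpace C] hE in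
lemma ev1_def (z : C) (f : PowerSeries C) : ev1 z f = ev (fun _ : Unit => z) f := rfl

lemma ev1_subst {a : MvPowerSeries τ C} {f : PowerSeries C} {y : τ → C} (ha : IntSer a)
    (ha0 : constantCoeff a = 0) (hf : IntSer f) (hy : Small y) :
    ev y (f.subst a) = ev1 (ev y a) f :=
  ev_subst hE (fun _ => ⟨ha, ha0⟩) hf hy

lemma norm_ev1_le {z : C} {f : PowerSeries C} (hz : ‖z‖ < 1) (hf : IntSer f)
    (h0 : PowerSeries.constantCoeff f = 0) : ‖ev1 z f‖ ≤ ‖z‖ :=
  norm_ev_le hE (small_unit hz) hf h0 (norm_nonneg z) fun _ => le_rfl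

lemma norm_ev1_sub_le {z w : C} {f : PowerSeries C} (hz : ‖z‖ < 1) (hw : ‖w‖ < 1)
    (hf : IntSer f) : ‖ev1 z f - ev1 w f‖ ≤ ‖z - w‖ :=
  norm_ev_sub_le hE (small_unit hz) (small_unit hw) hf (norm_nonneg _) fun _ => le_rfl

lemma tendsto_ev1 {f : PowerSeries C} (hf : IntSer f) {s : ℕ → C} {z : C}
    (hs : ∀ m, ‖s m‖ < 1) (hz : ‖z‖ < 1) (h : Tendsto s atTop (𝓝 z)) :
    Tendsto (fun m => ev1 (s m) f) atTop (𝓝 (ev1 z f)) := by
  rw [tendsto_iff_norm_sub_tendsto_zero] at h ⊢
  exact squeeze_zero (fun m => norm_nonneg _) (fun m => norm_ev1_sub_le hE (hs m) hz hf) h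

/-! ## The group law on points -/

variable {F : FormalGroup C} {a b a' b' : C}

lemma norm_padd_lt (hF : IntLaw F) (ha : ‖a‖ < 1) (hb : ‖b‖ < 1) : ‖padd F a b‖ < 1 :=
  norm_ev_lt_one hE (small_pair ha hb) hF F.zero_constantCoeff

lemma norm_padd_sub_le (hF : IntLaw F) (ha : ‖a‖ < 1) (hb : ‖b‖ < 1) (ha' : ‖a'‖ < 1)
    (hb' : ‖b'‖ < 1) : ‖padd F a b - padd F a' b'‖ ≤ max ‖a - a'‖ ‖b - b'‖ :=
  norm_ev_sub_le hE (small_pair ha hb) (small_pair ha' hb') hF
    (le_max_of_le_left (norm_nonneg _)) fun i => by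
      fin_cases i
      exacts [le_max_left _ _, le_max_right _ _]

lemma tendsto_padd (hF : IntLaw F) {s t : ℕ → C} (hs : ∀ m, ‖s m‖ < 1) (ht : ∀ m, ‖t m‖ < 1)
    (ha : ‖a‖ < 1) (hb : ‖b‖ < 1) (hsa : Tendsto s atTop (𝓝 a)) (htb : Tendsto t atTop (𝓝 b)) :
    Tendsto (fun m => padd F (s m) (t m)) atTop (𝓝 (padd F a b)) := by
  rw [tendsto_iff_norm_sub_tendsto_zero] at hsa htb ⊢
  refine squeeze_zero (fun m => norm_nonneg _)
    (fun m => norm_padd_sub_le hE hF (hs m) (ht m) ha hb) ?_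
  simpa using hsa.max htb

lemma padd_zero_left (hF : IntLaw F) (hb : ‖b‖ < 1) : padd F 0 b = b := by
  have h := congrArg (ev (fun _ : Unit => b))
    (F.zero_add (f := (MvPowerSeries.X () : MvPowerSeries Unit C)) (PowerSeries.HasSubst.X'))
  rwa [ev_subst_pair hE intSer_zero (map_zero _) (intSer_X ()) (constantCoeff_X ()) hF
    (small_unit hb), ev_zero hE, ev_X hE (small_unit hb)] at h

lemma padd_zero_right (hF : IntLaw F) (hb : ‖b‖ < 1) : padd F b 0 = b := by
  have h := congrArg (ev (fun _ : Unit => b))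
    (F.add_zero (f := (MvPowerSeries.X () : MvPowerSeries Unit C)) (PowerSeries.HasSubst.X'))
  rwa [ev_subst_pair hE (intSer_X ()) (constantCoeff_X ()) intSer_zero (map_zero _) hF
    (small_unit hb), ev_zero hE, ev_X hE (small_unit hb)] at h

lemma padd_assoc (hF : IntLaw F) {c : C} (ha : ‖a‖ < 1) (hb : ‖b‖ < 1) (hc : ‖c‖ < 1) :
    padd F (padd F a b) c = padd F a (padd F b c) := by
  let Y : Fin 3 → MvPowerSeries (Fin 3) C := MvPowerSeries.X
  have hy : Small ![a, b, c] := fun i => by fin_cases i <;> assumption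
  have hs : ∀ i, PowerSeries.HasSubst (Y i) := fun i => PowerSeries.HasSubst.X i
  have h := congrArg (ev ![a, b, c]) (F.assoc' (hs 0) (hs 1) (hs 2))
  have hg : ∀ i j, IntSer (F.toPowerSeries.subst ![Y i, Y j]) ∧
      constantCoeff (F.toPowerSeries.subst ![Y i, Y j]) = 0 := fun i j =>
    ⟨intSer_subst hE (fun k => by
        fin_cases k <;> exact ⟨intSer_X _, constantCoeff_X _⟩) hF,
      constantCoeff_subst_eq_zero (hasSubst_pair (constantCoeff_X _) (constantCoeff_X _))
        (fun k => by fin_cases k <;> exact constantCoeff_X _) F.zero_constantCoeff⟩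
  rw [ev_subst_pair hE (hg 0 1).1 (hg 0 1).2 (intSer_X _) (constantCoeff_X _) hF hy,
    ev_subst_pair hE (intSer_X _) (constantCoeff_X _) (hg 1 2).1 (hg 1 2).2 hF hy,
    ev_subst_pair hE (intSer_X _) (constantCoeff_X _) (intSer_X _) (constantCoeff_X _) hF hy,
    ev_subst_pair hE (intSer_X _) (constantCoeff_X _) (intSer_X _) (constantCoeff_X _) hF hy,
    ev_X hE hy, ev_X hE hy, ev_X hE hy] at h
  simpa using h

lemma padd_comm (hF : IntLaw F) (hc : F.IsComm) (ha : ‖a‖ < 1) (hb : ‖b‖ < 1) :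
    padd F a b = padd F b a := by
  have := hc
  have hy := small_pair ha hb
  have h := congrArg (ev ![a, b]) (F.comm'
    (f := (MvPowerSeries.X 0 : MvPowerSeries (Fin 2) C))
    (g := MvPowerSeries.X 1) (PowerSeries.HasSubst.X _) (PowerSeries.HasSubst.X _))
  rw [ev_subst_pair hE (intSer_X _) (constantCoeff_X _) (intSer_X _) (constantCoeff_X _) hF hy,
    ev_subst_pair hE (intSer_X _) (constantCoeff_X _) (intSer_X _) (constantCoeff_X _) hF hy,
    ev_X hE hy, ev_X hE hy] at h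
  simpa using h

lemma exists_padd_eq_zero (hF : IntLaw F) (ha : ‖a‖ < 1) :
    ∃ b, ‖b‖ ≤ ‖a‖ ∧ padd F a b = 0 := (hE C).2.2.2.2.2.2 F a hF ha

/-- Translations are isometries. -/
lemma norm_padd_sub_self (hF : IntLaw F) (hc : F.IsComm) (ha : ‖a‖ < 1) (hb : ‖b‖ < 1) :
    ‖padd F a b - a‖ = ‖b‖ := by
  refine le_antisymm ?_ ?_
  · have h := norm_padd_sub_le hE hF ha hb ha (b' := 0) (by simp)
    rw [padd_zero_right hE hF ha] at h
    simpa using h
  · obtain ⟨i, hi, hi0⟩ := exists_padd_eq_zero hE hF ha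
    have hi1 : ‖i‖ < 1 := hi.trans_lt ha
    have hab := norm_padd_lt hE hF ha hb
    have h := norm_padd_sub_le hE hF hi1 hab hi1 ha
    rw [← padd_assoc hE hF hi1 ha hb, padd_comm hE hF hc hi1 ha, hi0,
      padd_zero_left hE hF hb, sub_zero, sub_self, norm_zero] at h
    exact h.trans (max_le (norm_nonneg _) le_rfl)

lemma intSer_mulSer (hF : IntLaw F) : ∀ m, IntSer (mulSer F m : MvPowerSeries Unit C)
  | 0 => intSer_zero
  | m + 1 => intSer_subst hE (fun i => by
      fin_cases i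
      · exact ⟨intSer_psX, PowerSeries.constantCoeff_X⟩
      · exact ⟨intSer_mulSer hF m, constantCoeff_mulSer F m⟩) hF

lemma pmul_zero (z : C) : pmul F 0 z = 0 := ev_zero hE

lemma pmul_succ (hF : IntLaw F) {z : C} (hz : ‖z‖ < 1) (m : ℕ) :
    pmul F (m + 1) z = padd F z (pmul F m z) := by
  rw [pmul, mulSer_succ, fadd, ev1_def,
    ev_subst_pair hE intSer_psX PowerSeries.constantCoeff_X (intSer_mulSer hE hF m)
      (constantCoeff_mulSer F m) hF (small_unit hz), ← ev1_def, ev1_X hE hz]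
  rfl

lemma norm_pmul_le (hF : IntLaw F) {z : C} (hz : ‖z‖ < 1) (m : ℕ) : ‖pmul F m z‖ ≤ ‖z‖ :=
  norm_ev1_le hE hz (intSer_mulSer hE hF m) (constantCoeff_mulSer F m)

lemma norm_pmul_lt (hF : IntLaw F) {z : C} (hz : ‖z‖ < 1) (m : ℕ) : ‖pmul F m z‖ < 1 :=
  (norm_pmul_le hE hF hz m).trans_lt hz

end Eval

/-! ## The group of points -/

/-- A commutative integral law over a complete field, with the evaluation properties. -/
structure PLaw (C : Type) [NormedField C] [IsUltrametricDist C] [CompleteSpace C] where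
  F : FormalGroup C
  hE : EvalTarget
  hF : IntSer F.toPowerSeries
  hc : F.IsComm

variable {C : Type} [NormedField C] [IsUltrametricDist C] [CompleteSpace C]

/-- Points of a law in the open unit disc. -/
@[ext]
structure Pt (L : PLaw C) where
  val : C
  small : ‖val‖ < 1

namespace Pt

variable {L : PLaw C}

instance : Zero (Pt L) := ⟨⟨0, by simp⟩⟩

instance : Add (Pt L) := ⟨fun a b => ⟨padd L.F a.val b.val, norm_padd_lt L.hE L.hF a.small b.small⟩⟩

instance : Neg (Pt L) := ⟨fun a =>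
  ⟨(exists_padd_eq_zero L.hE L.hF a.small).choose,
    (exists_padd_eq_zero L.hE L.hF a.small).choose_spec.1.trans_lt a.small⟩⟩

@[simp] lemma val_zero : (0 : Pt L).val = 0 := rfl

@[simp] lemma val_add (a b : Pt L) : (a + b).val = padd L.F a.val b.val := rfl

instance : AddCommGroup (Pt L) where
  add_assoc a b c := Pt.ext (padd_assoc L.hE L.hF a.small b.small c.small)
  zero_add a := Pt.ext (padd_zero_left L.hE L.hF a.small)
  add_zero a := Pt.ext (padd_zero_right L.hE L.hF a.small)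
  add_comm a b := Pt.ext (padd_comm L.hE L.hF L.hc a.small b.small)
  nsmul := nsmulRec
  zsmul := zsmulRec
  neg_add_cancel a := by
    apply Pt.ext
    rw [val_add, padd_comm L.hE L.hF L.hc (-a).small a.small]
    exact (exists_padd_eq_zero L.hE L.hF a.small).choose_spec.2

lemma val_nsmul (a : Pt L) : ∀ m : ℕ, (m • a).val = pmul L.F m a.val
  | 0 => by rw [zero_nsmul, val_zero, pmul_zero L.hE]
  | m + 1 => by rw [succ_nsmul', val_add, val_nsmul a m, pmul_succ L.hE L.hF a.small]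

lemma val_sum : ∀ {d : ℕ} (f : Fin d → Pt L), (∑ i, f i).val = psum L.F (fun i => (f i).val)
  | 0, f => by simp [psum]
  | d + 1, f => by rw [Fin.sum_univ_succ, val_add, val_sum, psum]

end Pt

/-! ## Consequences for `pmul` -/

section Pmul

variable (L : PLaw C) {a b : C}

lemma pmul_mul (ha : ‖a‖ < 1) (i j : ℕ) : pmul L.F (i * j) a = pmul L.F i (pmul L.F j a) := by
  let P : Pt L := ⟨a, ha⟩
  have h := congrArg Pt.val (show (i * j) • P = i • (j • P) from by rw [← mul_nsmul'])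
  rwa [Pt.val_nsmul, Pt.val_nsmul, Pt.val_nsmul] at h

lemma pmul_padd (ha : ‖a‖ < 1) (hb : ‖b‖ < 1) (m : ℕ) :
    pmul L.F m (padd L.F a b) = padd L.F (pmul L.F m a) (pmul L.F m b) := by
  let P : Pt L := ⟨a, ha⟩
  let Q : Pt L := ⟨b, hb⟩
  have h := congrArg Pt.val (show m • (P + Q) = m • P + m • Q from nsmul_add P Q m)
  rwa [Pt.val_nsmul, Pt.val_add, Pt.val_add, Pt.val_nsmul, Pt.val_nsmul] at h

lemma ev1_padd_of_isHom (L' : PLaw C) {φ : PowerSeries C} (hφ : IntSer φ)
    (h : IsHom L.F L'.F φ) (ha : ‖a‖ < 1) (hb : ‖b‖ < 1) :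
    ev1 (padd L.F a b) φ = padd L'.F (ev1 a φ) (ev1 b φ) := by
  have hy := small_pair ha hb
  have h2 := congrArg (ev ![a, b]) h.2
  have hi : ∀ i : Fin 2, IntSer (φ.subst (MvPowerSeries.X i : MvPowerSeries (Fin 2) C)) ∧
      constantCoeff (φ.subst (MvPowerSeries.X i : MvPowerSeries (Fin 2) C)) = 0 := fun i =>
    ⟨intSer_subst L.hE (fun _ => ⟨intSer_X i, constantCoeff_X i⟩) hφ,
      constantCoeff_subst_eq_zero (PowerSeries.HasSubst.X i).const
        (fun _ => constantCoeff_X i) h.1⟩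
  rw [ev1_subst L.hE L.hF L.F.zero_constantCoeff hφ hy, fadd,
    ev_subst_pair L.hE (hi 0).1 (hi 0).2 (hi 1).1 (hi 1).2 L'.hF hy,
    ev1_subst L.hE (intSer_X _) (constantCoeff_X _) hφ hy,
    ev1_subst L.hE (intSer_X _) (constantCoeff_X _) hφ hy,
    ev_X L.hE hy, ev_X L.hE hy] at h2
  simpa [padd] using h2

lemma ev1_pmul_of_isHom (L' : PLaw C) {φ : PowerSeries C} (hφ : IntSer φ)
    (h : IsHom L.F L'.F φ) (ha : ‖a‖ < 1) :
    ∀ m, ev1 (pmul L.F m a) φ = pmul L'.F m (ev1 a φ)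
  | 0 => by
    rw [pmul_zero L.hE, pmul_zero L.hE]
    have := norm_ev1_le L.hE (z := (0 : C)) (by simp) hφ h.1
    simpa using this
  | m + 1 => by
    have h1 : ‖ev1 a φ‖ < 1 := (norm_ev1_le L.hE ha hφ h.1).trans_lt ha
    rw [pmul_succ L.hE L.hF ha, ev1_padd_of_isHom L L' hφ h ha (norm_pmul_lt L.hE L.hF ha m),
      ev1_pmul_of_isHom L' hφ h ha m, pmul_succ L.hE L'.hF h1]

end Pmul

end Vale.Agent.P217.Theta

end
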