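import Vale.Agent.P217.Theta.Congr

/-!
# P217: the map from the universal cover to the points of a lift
-/

noncomputable section

set_option linter.unusedSectionVars false

namespace Vale.Agent.P217.Theta

open MvPowerSeries Finset Filter Topology

/-- The data of `ThetaTarget`. -/
structure Setup (p n : ℕ) [Fact p.Prime] (C D : Type) [NormedField C] [IsUltrametricDist C]
    [CompleteSpace C] [NormedField D] [IsUltrametricDist D] [CompleteSpace D] where
  hE : EvalTarget
  hL : LowDegreeTarget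
  ρ : C →*₀ D
  c : ℝ
  hρ : NearAdd ρ c
  hpc : ‖(p : D)‖ ≤ c
  hn : 1 ≤ n
  v : ℕ → D
  hv : NearHonda n c v

variable {p n : ℕ} [hp : Fact p.Prime] {C D : Type} [NormedField C] [IsUltrametricDist C]
  [CompleteSpace C] [NormedField D] [IsUltrametricDist D] [CompleteSpace D]
  [CharP C p] [PerfectRing C p]

variable (T : Setup p n C D)

/-- The lifted law. -/
def Setup.lawP : PLaw D :=
  ⟨law p T.v, T.hE, intSer_law p T.hv.le_one, law_isComm p T.v⟩

/-- The `M`-th term of the sequence defining `theta`. -/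
def Setup.seq (η : C) (M : ℕ) : D := pmul (law p T.v) (p ^ M) (T.ρ (root p η (n * M)))

lemma Setup.norm_root (η : C) (hη : ‖η‖ < 1) (m : ℕ) : ‖T.ρ (root p η m)‖ < 1 :=
  (T.hρ.norm_eq _).trans_lt (norm_root_lt hη m)

lemma Setup.norm_seq_lt {η : C} (hη : ‖η‖ < 1) (M : ℕ) : ‖T.seq η M‖ < 1 :=
  norm_pmul_lt T.hE (intSer_law p T.hv.le_one) (T.norm_root η hη _) _

/-- `[p]` is congruent to the power `p ^ n`. -/
lemma Setup.norm_pmul_p_sub {z : D} (hz : ‖z‖ < 1) :
    ‖pmul (law p T.v) p z - z ^ p ^ n‖ ≤ T.c := by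
  have hX : IntSer ((PowerSeries.X : PowerSeries D) ^ p ^ n : PowerSeries D) := fun d => by
    obtain ⟨m, rfl⟩ : ∃ m, d = Finsupp.single () m := ⟨d (), by ext; simp⟩
    change ‖PowerSeries.coeff m _‖ ≤ 1
    rw [PowerSeries.coeff_X_pow]
    split_ifs <;> simp
  have h1 : HasSum _ (pmul (law p T.v) p z) := hasSum_ev T.hE (small_unit hz)
    (intSer_mulSer T.hE (intSer_law p T.hv.le_one) p)
  have h2 : HasSum _ (ev1 z ((PowerSeries.X : PowerSeries D) ^ p ^ n)) :=
    hasSum_ev T.hE (small_unit hz) hX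
  have hval : ev1 z ((PowerSeries.X : PowerSeries D) ^ p ^ n) = z ^ p ^ n := by
    change ev _ _ = _
    rw [ev, tsum_eq_single (Finsupp.single () (p ^ n))]
    · change PowerSeries.coeff (p ^ n) ((PowerSeries.X : PowerSeries D) ^ p ^ n) * _ = _
      rw [PowerSeries.coeff_X_pow, if_pos rfl, one_mul, mon,
        Finsupp.prod_single_index (by simp)]
    · intro d hd
      obtain ⟨m, rfl⟩ : ∃ m, d = Finsupp.single () m := ⟨d (), by ext; simp⟩
      change PowerSeries.coeff m _ * _ = _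
      rw [PowerSeries.coeff_X_pow, if_neg fun h => hd (by rw [h]), zero_mul]
  rw [hval] at h2
  refine le_of_tendsto (h1.sub h2).norm (Filter.Eventually.of_forall fun s => ?_)
  refine IsUltrametricDist.norm_sum_le_of_forall_le_of_nonneg T.hρ.nonneg fun d _ => ?_
  obtain ⟨m, rfl⟩ : ∃ m, d = Finsupp.single () m := ⟨d (), by ext; simp⟩
  rw [← sub_mul, norm_mul]
  refine (mul_le_of_le_one_right (norm_nonneg _) ?_).trans
    (norm_coeff_pSer_sub T.hL T.hn T.hρ.nonneg T.hρ.lt_one T.hpc T.hv m)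
  rw [mon, Finsupp.prod, norm_prod]
  exact Finset.prod_le_one (fun i _ => norm_nonneg _)
    (fun i _ => by rw [norm_pow]; exact pow_le_one₀ (norm_nonneg _) hz.le)

/-- `[p]` contracts differences of size at most `c` by the factor `c`. -/
lemma Setup.norm_pmul_p_sub_sub {z w : D} (hz : ‖z‖ < 1) (hw : ‖w‖ < 1) {s : ℝ}
    (hs : s ≤ T.c) (h : ‖z - w‖ ≤ s) :
    ‖pmul (law p T.v) p z - pmul (law p T.v) p w‖ ≤ T.c * s := by
  have hs0 : 0 ≤ s := (norm_nonneg _).trans h
  set f : PowerSeries D := mulSer (law p T.v) p with hf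
  have hfI : IntSer f := intSer_mulSer T.hE (intSer_law p T.hv.le_one) p
  refine le_of_tendsto ((hasSum_ev T.hE (small_unit hz) hfI).sub
    (hasSum_ev T.hE (small_unit hw) hfI)).norm (Filter.Eventually.of_forall fun S => ?_)
  refine IsUltrametricDist.norm_sum_le_of_forall_le_of_nonneg
    (mul_nonneg T.hρ.nonneg hs0) fun d _ => ?_
  obtain ⟨m, rfl⟩ : ∃ m, d = Finsupp.single () m := ⟨d (), by ext; simp⟩
  rw [← mul_sub, norm_mul]
  have hm : ∀ x : D, mon (fun _ : Unit => x) (Finsupp.single () m) = x ^ m := fun x =>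
    Finsupp.prod_single_index (h_zero := by simp)
  rw [hm, hm]
  have hpow : ∀ k, ‖z ^ k - w ^ k‖ ≤ s := fun k => by
    have hdiv : z - w ∣ z ^ k - w ^ k := sub_dvd_pow_sub_pow z w k
    induction k with
    | zero => simpa using hs0
    | succ k ih =>
      rw [show z ^ (k + 1) - w ^ (k + 1) = z * (z ^ k - w ^ k) + (z - w) * w ^ k by ring]
      refine (IsUltrametricDist.norm_add_le_max _ _).trans (max_le ?_ ?_) <;> rw [norm_mul]
      · exact (mul_le_of_le_one_left (norm_nonneg _) hz.le).trans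
          (ih (sub_dvd_pow_sub_pow z w k))
      · rw [norm_pow]
        exact (mul_le_of_le_one_right (norm_nonneg _)
          (pow_le_one₀ (norm_nonneg _) hw.le)).trans h
  by_cases hmq : m = p ^ n
  · subst hmq
    have hc2 : 2 ≤ p ^ n :=
      hp.out.two_le.trans (Nat.le_self_pow (Nat.one_le_iff_ne_zero.1 T.hn) p)
    refine (mul_le_of_le_one_left (norm_nonneg _)
      (hfI (Finsupp.single () (p ^ n)))).trans ?_
    rw [show z ^ p ^ n = ((z - w) + w) ^ p ^ n by rw [sub_add_cancel], add_pow,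
      Finset.sum_range_succ', ]
    simp only [pow_zero, one_mul, Nat.choose_zero_right, Nat.cast_one, mul_one, Nat.sub_zero,
      add_sub_cancel_right]
    refine IsUltrametricDist.norm_sum_le_of_forall_le_of_nonneg
      (mul_nonneg T.hρ.nonneg hs0) fun k hk => ?_
    rw [Finset.mem_range] at hk
    rw [norm_mul, norm_mul, norm_pow, norm_pow]
    have hwp : ‖w‖ ^ (p ^ n - (k + 1)) ≤ 1 := pow_le_one₀ (norm_nonneg _) hw.le
    rcases eq_or_ne (k + 1) (p ^ n) with hk1 | hk1
    · refine (mul_le_of_le_one_right (mul_nonneg (pow_nonneg (norm_nonneg _) _)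
        (pow_nonneg (norm_nonneg _) _)) (IsUltrametricDist.norm_natCast_le_one D _)).trans ?_
      refine (mul_le_of_le_one_right (pow_nonneg (norm_nonneg _) _) hwp).trans ?_
      have hs1 : ‖z - w‖ < 1 := (h.trans hs).trans_lt T.hρ.lt_one
      calc ‖z - w‖ ^ (k + 1) ≤ ‖z - w‖ ^ 2 :=
            pow_le_pow_of_le_one (norm_nonneg _) hs1.le (by omega)
        _ = ‖z - w‖ * ‖z - w‖ := sq _
        _ ≤ T.c * s := mul_le_mul (h.trans hs) h (norm_nonneg _) T.hρ.nonneg
    · have hdvd : p ∣ (p ^ n).choose (k + 1) :=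
        hp.out.dvd_choose_pow (by omega) hk1
      obtain ⟨t, ht⟩ := hdvd
      have hcn : ‖(((p ^ n).choose (k + 1) : ℕ) : D)‖ ≤ T.c := by
        rw [ht, Nat.cast_mul, norm_mul]
        exact (mul_le_of_le_one_right (norm_nonneg _)
          (IsUltrametricDist.norm_natCast_le_one D t)).trans T.hpc
      rw [mul_comm T.c s]
      refine mul_le_mul ?_ hcn (norm_nonneg _) hs0
      refine (mul_le_of_le_one_right (pow_nonneg (norm_nonneg _) _) hwp).trans ?_
      calc ‖z - w‖ ^ (k + 1) ≤ ‖z - w‖ ^ 1 :=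
            pow_le_pow_of_le_one (norm_nonneg _)
              ((h.trans hs).trans T.hρ.lt_one.le) (by omega)
        _ = ‖z - w‖ := pow_one _
        _ ≤ s := h
  · refine mul_le_mul ?_ (hpow m) (norm_nonneg _) T.hρ.nonneg
    have := norm_coeff_pSer_sub T.hL T.hn T.hρ.nonneg T.hρ.lt_one T.hpc T.hv m
    rwa [PowerSeries.coeff_X_pow, if_neg hmq, sub_zero] at this

/-- Congruence principle: `[p ^ M]` depends only on its argument modulo `c`. -/
lemma Setup.norm_pmul_pow_sub {z w : D} (hz : ‖z‖ < 1) (hw : ‖w‖ < 1) (h : ‖z - w‖ ≤ T.c) :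
    ∀ M, ‖pmul (law p T.v) (p ^ M) z - pmul (law p T.v) (p ^ M) w‖ ≤ T.c ^ (M + 1) := by
  intro M
  induction M with
  | zero =>
    have h1 : ∀ y : D, ‖y‖ < 1 → pmul (law p T.v) 1 y = y := fun y hy => by
      rw [show (1 : ℕ) = 0 + 1 from rfl, pmul_succ T.hE (intSer_law p T.hv.le_one) hy,
        pmul_zero T.hE, padd_zero_right T.hE (intSer_law p T.hv.le_one) hy]
    rw [pow_zero, h1 z hz, h1 w hw, zero_add, pow_one]
    exact h
  | succ M ih =>
    have hz' := norm_pmul_lt T.hE (intSer_law p T.hv.le_one) hz (p ^ M)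
    have hw' := norm_pmul_lt T.hE (intSer_law p T.hv.le_one) hw (p ^ M)
    have he : ∀ y : D, ‖y‖ < 1 → pmul (law p T.v) (p ^ (M + 1)) y =
        pmul (law p T.v) p (pmul (law p T.v) (p ^ M) y) := fun y hy => by
      rw [pow_succ']
      exact pmul_mul T.lawP hy p (p ^ M)
    rw [he z hz, he w hw, pow_succ' T.c (M + 1)]
    exact T.norm_pmul_p_sub_sub hz' hw'
      (pow_le_of_le_one T.hρ.nonneg T.hρ.lt_one.le (by omega)) ih

lemma Setup.seq_succ_sub {η : C} (hη : ‖η‖ < 1) (M : ℕ) :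
    ‖T.seq η (M + 1) - T.seq η M‖ ≤ T.c ^ (M + 1) := by
  have hz := T.norm_root η hη (n * (M + 1))
  have hw := T.norm_root η hη (n * M)
  have hpow : T.ρ (root p η (n * (M + 1))) ^ p ^ n = T.ρ (root p η (n * M)) := by
    rw [← map_pow]
    congr 1
    rw [mul_add, mul_one, ← root_root, root_pow]
  have h : ‖pmul (law p T.v) p (T.ρ (root p η (n * (M + 1)))) -
      T.ρ (root p η (n * M))‖ ≤ T.c := hpow ▸ T.norm_pmul_p_sub hz
  have h' := T.norm_pmul_pow_sub (norm_pmul_lt T.hE (intSer_law p T.hv.le_one) hz p) hw h M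
  have e : pmul (law p T.v) (p ^ M * p) (T.ρ (root p η (n * (M + 1)))) = _ :=
    pmul_mul T.lawP hz (p ^ M) p
  rw [Setup.seq, Setup.seq, pow_succ, e]
  exact h'

lemma Setup.seq_sub {η : C} (hη : ‖η‖ < 1) (M : ℕ) :
    ∀ j, ‖T.seq η (M + j) - T.seq η M‖ ≤ T.c ^ (M + 1) := by
  intro j
  induction j with
  | zero => simpa using pow_nonneg T.hρ.nonneg _
  | succ j ih =>
    refine norm_sub_trans ?_ ih
    exact (T.seq_succ_sub hη (M + j)).trans
      (pow_le_pow_of_le_one T.hρ.nonneg T.hρ.lt_one.le (by omega))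

lemma Setup.tendsto_pow : Tendsto (fun M : ℕ => T.c ^ (M + 1)) atTop (𝓝 0) :=
  (tendsto_pow_atTop_nhds_zero_of_lt_one T.hρ.nonneg T.hρ.lt_one).comp (tendsto_add_atTop_nat 1)

lemma Setup.tendsto_seq {η : C} (hη : ‖η‖ < 1) :
    Tendsto (T.seq η) atTop (𝓝 (theta p n T.ρ T.v η)) := by
  refine (CauchySeq.tendsto_limUnder ?_)
  refine cauchySeq_of_le_tendsto_0 (fun N => T.c ^ (N + 1)) (fun i j N hi hj => ?_) T.tendsto_pow
  obtain ⟨i, rfl⟩ := Nat.exists_eq_add_of_le hi
  obtain ⟨j, rfl⟩ := Nat.exists_eq_add_of_le hj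
  rw [dist_eq_norm]
  exact norm_sub_trans (T.seq_sub hη N i) (by rw [norm_sub_rev]; exact T.seq_sub hη N j)

lemma Setup.theta_sub_seq {η : C} (hη : ‖η‖ < 1) (M : ℕ) :
    ‖theta p n T.ρ T.v η - T.seq η M‖ ≤ T.c ^ (M + 1) :=
  le_of_tendsto (((T.tendsto_seq hη).comp
    (tendsto_atTop_mono (fun j => Nat.le_add_left j M) tendsto_id)).sub_const _).norm
    (Filter.Eventually.of_forall fun j => T.seq_sub hη M j)

/-- `theta` is the limit along any sequence congruent to the roots. -/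
lemma Setup.tendsto_of_close {η : C} (hη : ‖η‖ < 1) {z : ℕ → D} (hz : ∀ M, ‖z M‖ < 1)
    (h : ∀ M, ‖z M - T.ρ (root p η (n * M))‖ ≤ T.c) :
    Tendsto (fun M => pmul (law p T.v) (p ^ M) (z M)) atTop (𝓝 (theta p n T.ρ T.v η)) := by
  rw [tendsto_iff_norm_sub_tendsto_zero]
  refine squeeze_zero (fun M => norm_nonneg _) (fun M => ?_) T.tendsto_pow
  refine norm_sub_trans (T.norm_pmul_pow_sub (hz M) (T.norm_root η hη _) (h M) M) ?_
  rw [norm_sub_rev]
  exact T.theta_sub_seq hη M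

lemma Setup.theta_sub_rho {η : C} (hη : ‖η‖ < 1) :
    ‖theta p n T.ρ T.v η - T.ρ η‖ ≤ T.c := by
  have h := T.theta_sub_seq hη 0
  simp only [Setup.seq, pow_zero, mul_zero, root_zero, zero_add, pow_one] at h
  rwa [show (1 : ℕ) = 0 + 1 from rfl, pmul_succ T.hE (intSer_law p T.hv.le_one)
      ((T.hρ.norm_eq η).trans_lt hη), pmul_zero T.hE,
    padd_zero_right T.hE (intSer_law p T.hv.le_one) ((T.hρ.norm_eq η).trans_lt hη)] at h

lemma Setup.norm_theta_lt {η : C} (hη : ‖η‖ < 1) : ‖theta p n T.ρ T.v η‖ < 1 := by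
  rw [show theta p n T.ρ T.v η = (theta p n T.ρ T.v η - T.ρ η) + T.ρ η by abel]
  exact (IsUltrametricDist.norm_add_le_max _ _).trans_lt
    (max_lt ((T.theta_sub_rho hη).trans_lt T.hρ.lt_one) ((T.hρ.norm_eq η).trans_lt hη))

lemma Setup.theta_pow {η : C} (hη : ‖η‖ < 1) :
    theta p n T.ρ T.v (η ^ p ^ n) = pmul (law p T.v) p (theta p n T.ρ T.v η) := by
  have hη' : ‖η ^ p ^ n‖ < 1 := by
    rw [norm_pow]
    exact pow_lt_one₀ (norm_nonneg _) hη (pow_ne_zero n hp.out.ne_zero)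
  refine tendsto_nhds_unique ((T.tendsto_seq hη').comp (tendsto_add_atTop_nat 1)) ?_
  have h := tendsto_ev1 T.hE (intSer_mulSer T.hE (intSer_law p T.hv.le_one) p)
    (T.norm_seq_lt hη) (T.norm_theta_lt hη) (T.tendsto_seq hη)
  refine h.congr' (Filter.Eventually.of_forall fun M => ?_)
  change pmul (law p T.v) p (T.seq η M) = T.seq (η ^ p ^ n) (M + 1)
  rw [Setup.seq, Setup.seq, pow_succ', mul_add, mul_one, add_comm, root_pow_comm]
  exact (pmul_mul T.lawP (T.norm_root η hη _) p (p ^ M)).symm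

lemma Setup.theta_add {η η' : C} (hη : ‖η‖ < 1) (hη' : ‖η'‖ < 1) :
    theta p n T.ρ T.v (padd (honda p n C) η η') =
      padd (law p T.v) (theta p n T.ρ T.v η) (theta p n T.ρ T.v η') := by
  have hH : IntSer (honda p n C).toPowerSeries := fun d => by
    rw [coeff_honda]
    exact IsUltrametricDist.norm_intCast_le_one C _
  have hsum := norm_padd_lt T.hE hH hη hη'
  have hl := intSer_law p T.hv.le_one
  refine tendsto_nhds_unique (T.tendsto_of_close hsum
      (z := fun M => padd (law p T.v) (T.ρ (root p η (n * M))) (T.ρ (root p η' (n * M))))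
      (fun M => norm_padd_lt T.hE hl (T.norm_root η hη _) (T.norm_root η' hη' _)) fun M => ?_) ?_
  · rw [show padd (honda p n C) η η' = ev ![η, η'] (honda p n C).toPowerSeries from rfl,
      root_ev T.hE (small_pair hη hη') hH (m := n * M) fun d => by
        rw [coeff_honda]
        exact map_intCast (iterateFrobenius C p (n * M)) _]
    have hfun : (fun i => root p (![η, η'] i) (n * M)) =
        ![root p η (n * M), root p η' (n * M)] := by funext i; fin_cases i <;> rfl
    rw [hfun]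
    exact T.hρ.map_padd T.hE T.hv (norm_root_lt hη _) (norm_root_lt hη' _)
      (T.norm_root η hη _) (T.norm_root η' hη' _) (by simpa using T.hρ.nonneg)
      (by simpa using T.hρ.nonneg)
  · refine (tendsto_padd T.hE hl (T.norm_seq_lt hη) (T.norm_seq_lt hη') (T.norm_theta_lt hη)
      (T.norm_theta_lt hη') (T.tendsto_seq hη) (T.tendsto_seq hη')).congr fun M => ?_
    exact (pmul_padd T.lawP (T.norm_root η hη _) (T.norm_root η' hη' _) (p ^ M)).symm

lemma Setup.theta_zero : theta p n T.ρ T.v 0 = 0 := by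
  refine tendsto_nhds_unique (T.tendsto_seq (η := 0) (by simp)) ?_
  refine tendsto_const_nhds.congr fun M => ?_
  rw [Setup.seq, root_zero_left, map_zero]
  exact (norm_le_zero_iff.1 ((norm_pmul_le T.hE (intSer_law p T.hv.le_one)
    (z := (0 : D)) (by simp) (p ^ M)).trans norm_zero.le)).symm

lemma Setup.continuousAt_theta {η : C} (hη : ‖η‖ < 1) (hc : 0 < T.c) :
    ContinuousAt (theta p n T.ρ T.v) η := by
  rw [Metric.continuousAt_iff]
  intro ε hε
  obtain ⟨M, hM⟩ := (T.tendsto_pow.eventually (gt_mem_nhds hε)).exists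
  refine ⟨min (T.c ^ p ^ (n * M)) (1 - ‖η‖), lt_min (pow_pos hc _) (by linarith),
    fun {η'} hd => ?_⟩
  rw [dist_eq_norm, lt_min_iff] at hd
  have hη' : ‖η'‖ < 1 := by
    calc ‖η'‖ = ‖(η' - η) + η‖ := by rw [sub_add_cancel]
      _ ≤ ‖η' - η‖ + ‖η‖ := norm_add_le _ _
      _ < 1 := by linarith
  rw [dist_eq_norm]
  refine lt_of_le_of_lt (norm_sub_trans (T.theta_sub_seq hη' M) ?_) hM
  refine norm_sub_trans ?_ ((norm_sub_rev _ _).trans_le (T.theta_sub_seq hη M))
  refine T.norm_pmul_pow_sub (T.norm_root η' hη' _) (T.norm_root η hη _) ?_ M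
  exact (T.hρ.close (norm_root_lt hη' _).le (norm_root_lt hη _).le
    (norm_root_sub_le hc.le hd.1.le)).trans (max_le le_rfl le_rfl)

lemma Setup.theta_lipschitz (T' : Setup p n C D) (hρρ : T'.ρ = T.ρ) {r : ℝ} (hr : 0 ≤ r)
    (h : ∀ i, ‖T.v i - T'.v i‖ ≤ r) {η : C} (hη : ‖η‖ < 1) :
    ‖theta p n T.ρ T.v η - theta p n T.ρ T'.v η‖ ≤ r := by
  have h2 := T'.tendsto_seq hη
  rw [hρρ] at h2
  refine le_of_tendsto ((T.tendsto_seq hη).sub h2).norm
    (Filter.Eventually.of_forall fun M => ?_)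
  rw [Setup.seq, Setup.seq, hρρ, pmul, pmul]
  have hz := T.norm_root η hη (n * M)
  refine le_of_tendsto ((hasSum_ev T.hE (small_unit hz)
    (intSer_mulSer T.hE (intSer_law p T.hv.le_one) _)).sub (hasSum_ev T.hE (small_unit hz)
    (intSer_mulSer T.hE (intSer_law p T'.hv.le_one) _))).norm
    (Filter.Eventually.of_forall fun S => ?_)
  refine IsUltrametricDist.norm_sum_le_of_forall_le_of_nonneg hr fun d _ => ?_
  obtain ⟨m, rfl⟩ : ∃ m, d = Finsupp.single () m := ⟨d (), by ext; simp⟩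
  rw [← sub_mul, norm_mul]
  refine (mul_le_of_le_one_right (norm_nonneg _) ?_).trans
    (norm_coeff_mulSer_sub T.hv.le_one T'.hv.le_one hr h _ m)
  rw [mon, Finsupp.prod, norm_prod]
  exact Finset.prod_le_one (fun i _ => norm_nonneg _)
    (fun i _ => by rw [norm_pow]; exact pow_le_one₀ (norm_nonneg _) hz.le)

lemma Setup.theta_hom (T' : Setup p n C D) (hρρ : T'.ρ = T.ρ) (hcc : T'.c = T.c)
    {φ : PowerSeries D} {a : PowerSeries C} (hφ : IntSer φ) (ha : IntSer a)
    (ha0 : PowerSeries.constantCoeff a = 0)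
    (hfix : ∀ m, PowerSeries.coeff m a ^ p ^ n = PowerSeries.coeff m a)
    (hom : IsHom (law p T.v) (law p T'.v) φ)
    (hcong : ∀ m, ‖PowerSeries.coeff m φ - T.ρ (PowerSeries.coeff m a)‖ ≤ T.c)
    {η : C} (hη : ‖η‖ < 1) :
    theta p n T.ρ T'.v (ev1 η a) = ev1 (theta p n T.ρ T.v η) φ := by
  have hη' : ‖ev1 η a‖ < 1 := (norm_ev1_le T.hE hη ha ha0).trans_lt hη
  have hz : ∀ M, ‖ev1 (T.ρ (root p η (n * M))) φ‖ < 1 := fun M =>
    (norm_ev1_le T.hE (T.norm_root η hη _) hφ hom.1).trans_lt (T.norm_root η hη _)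
  have hfix' : ∀ (M : ℕ) (d : Unit →₀ ℕ), coeff d a ^ p ^ (n * M) = coeff d a := by
    intro M
    induction M with
    | zero => simp
    | succ M ih =>
      intro d
      obtain ⟨m, rfl⟩ : ∃ m, d = Finsupp.single () m := ⟨d (), by ext; simp⟩
      rw [mul_add, mul_one, pow_add, pow_mul, ih]
      exact hfix m
  have h := T'.tendsto_of_close hη' hz fun M => by
    rw [hρρ, hcc, ev1_def, ev1_def, root_ev T.hE (small_unit hη) ha (hfix' M)]
    refine T.hρ.map_ev T.hE (small_unit (norm_root_lt hη _)) (small_unit (T.norm_root η hη _))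
      (fun _ => by simpa using T.hρ.nonneg) ha hφ fun d => ?_
    obtain ⟨m, rfl⟩ : ∃ m, d = Finsupp.single () m := ⟨d (), by ext; simp⟩
    exact hcong m
  rw [hρρ] at h
  refine tendsto_nhds_unique h ?_
  refine (tendsto_ev1 T.hE hφ (T.norm_seq_lt hη) (T.norm_theta_lt hη)
    (T.tendsto_seq hη)).congr fun M => ?_
  exact ev1_pmul_of_isHom T.lawP T'.lawP hφ hom (T.norm_root η hη _) (p ^ M)

end Vale.Agent.P217.Theta

namespace Vale.Agent.P217

open Theta

/-- The properties of `theta`. -/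
theorem thetaTarget (hE : EvalTarget) (hL : LowDegreeTarget) : ThetaTarget := by
  intro p _ C _ _ _ _ _ D _ _ _ ρ c hc1 hnorm hpc hadd n hn u hu
  have hc0 : 0 ≤ c := (norm_nonneg _).trans hpc
  let mk : ∀ u : Fin (n - 1) → D, (∀ i, ‖u i‖ ≤ c) → Setup p n C D := fun u hu =>
    ⟨hE, hL, ρ, c, ⟨hc0, hc1, hnorm, hadd⟩, hpc, hn, vTuple n u,
      nearHonda_vTuple hc0 hc1.le hu⟩
  let T := mk u hu
  refine ⟨fun η hη => ⟨T.tendsto_seq hη, T.norm_theta_lt hη, T.theta_sub_rho hη,
    T.theta_pow hη, fun η' hη' => T.theta_add hη hη', ?_⟩, T.theta_zero, fun u' hu' => ⟨?_, ?_⟩⟩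
  · let c' := max c (1 / 2)
    have hcc : c ≤ c' := le_max_left _ _
    have hc'1 : c' < 1 := max_lt hc1 (by norm_num)
    let T' : Setup p n C D :=
      ⟨hE, hL, ρ, c', ⟨hc0.trans hcc, hc'1, hnorm, fun a b ha hb => (hadd a b ha hb).trans hcc⟩,
        hpc.trans hcc, hn, vTuple n u,
        nearHonda_vTuple (hc0.trans hcc) hc'1.le fun i => (hu i).trans hcc⟩
    exact T'.continuousAt_theta hη (lt_max_of_lt_right (by norm_num))
  · intro r hr hrr η hη
    refine T.theta_lipschitz (mk u' hu') rfl hr (fun i => ?_) hη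
    change ‖vTuple n u i - vTuple n u' i‖ ≤ r
    unfold vTuple
    split_ifs
    exacts [hrr _, by simpa using hr, by simpa using hr]
  · intro φ a hφ ha ha0 hfix hom hcong η hη
    exact T.theta_hom (mk u' hu') rfl rfl hφ ha ha0 hfix hom hcong hη

end Vale.Agent.P217

end
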